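import Vale.Agent.P257CZ.St
import Vale.Agent.P257.H702.FinP

/-!
# P257: counting cells
-/

open CategoryTheory MonoidalCategory Limits Pretriangulated Triangulated

set_option linter.unusedSectionVars false

noncomputable section

namespace Vale.Agent.P257CZ

open Vale.Agent.P251.St Vale.Agent.P251.St.SHCat Vale.Agent.P257.H702
open Vale.Agent.P251CY.V (Cells dims)

variable {T : SHCat}

theorem cells_congr {s t : Multiset ℤ} {X : T.C} (h : Cells s X) (e : s = t) : Cells t X := e ▸ h

theorem cells_iso {s : Multiset ℤ} {X Y : T.C} (h : Cells s X) (e : X ≅ Y) : Cells s Y := by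
  cases h with
  | zero h0 =>
    refine .zero ?_
    have := (isZero_of_ident h0).of_iso e.symm
    exact this.eq_of_src _ _
  | @cell s X' _ k f g h' hd hX =>
    refine .cell (f := f) (g := g ≫ e.hom) (h := e.inv ≫ h') ?_ hX
    exact dist_iso hd (Iso.refl _) (Iso.refl _) e (by simp) (by simp) (by simp)

/-- attaching a sphere -/
theorem cells_cell {s : Multiset ℤ} {A X Y : T.C} {k : ℤ} (e : A ≅ sphere T k) {f : A ⟶ X}
    {g : X ⟶ Y} {h : Y ⟶ A⟦(1 : ℤ)⟧} (hd : Triangle.mk f g h ∈ distTriang T.C)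
    (hX : Cells s X) : Cells ((k + 1) ::ₘ s) Y := by
  refine .cell (f := e.inv ≫ f) (g := g) (h := h ≫ e.hom⟦(1 : ℤ)⟧') ?_ hX
  exact dist_iso hd e (Iso.refl _) (Iso.refl _) (by simp) (by simp) (by simp)

theorem cells_shift {s : Multiset ℤ} {X : T.C} (h : Cells s X) (n : ℤ) :
    Cells (s.map (· + n)) (X⟦n⟧) := by
  induction h with
  | zero h0 =>
    refine .zero ?_
    have := (shiftFunctor T.C n).map_isZero (isZero_of_ident h0)
    exact this.eq_of_src _ _
  | @cell s X Y k f g h hd hX ih =>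
    have := Triangle.shift_distinguished _ hd n
    refine cells_congr (cells_cell (A := (sphere T k)⟦n⟧) (k := k + n)
      ((shiftFunctorAdd T.C k n).app _).symm this ih) ?_
    rw [Multiset.map_cons, add_right_comm]

theorem cells_ext_aux {c : Multiset ℤ} {C : T.C} (hC : Cells c C) :
    ∀ (n : ℤ) {a : Multiset ℤ} {A B C' : T.C} (_ : C' ≅ C⟦n⟧)
    {f : A ⟶ B} {g : B ⟶ C'} {h : C' ⟶ A⟦(1 : ℤ)⟧},
    Triangle.mk f g h ∈ distTriang T.C → Cells a A → Cells (a + c.map (· + n)) B := by
  induction hC with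
  | zero h0 =>
    intro n a A B C' e f g h hd hA
    have hz : IsZero C' := ((shiftFunctor T.C n).map_isZero (isZero_of_ident h0)).of_iso e
    have : IsIso f := (Triangle.isZero₃_iff_isIso₁ _ hd).1 hz
    exact cells_congr (cells_iso hA (asIso f)) (by simp)
  | @cell s X Y k f₀ g₀ h₀ hd₀ hX ih =>
    intro n a A B C' e f g h hd hA
    have hd₁ := Triangle.shift_distinguished _ hd₀ n
    obtain ⟨φ, γ, χ, hd₂⟩ : ∃ (φ : (sphere T k)⟦n⟧ ⟶ X⟦n⟧) (γ : X⟦n⟧ ⟶ C')
        (χ : C' ⟶ ((sphere T k)⟦n⟧)⟦(1 : ℤ)⟧), Triangle.mk φ γ χ ∈ distTriang T.C := by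
      exact ⟨_, _, _, dist_iso₃ hd₁ e.symm⟩
    have h12 := rot_of_distTriang _ hd
    have h23 := rot_of_distTriang _ (rot_of_distTriang _ hd₂)
    obtain ⟨Z, v13, w13, h13⟩ := distinguished_cocone_triangle (g ≫ χ)
    have oct := someOctahedron rfl h12 h23 h13
    have hZ : Cells (a.map (· + 1) + s.map (· + (n + 1))) Z := by
      refine ih (n + 1) (A := A⟦(1 : ℤ)⟧) (C' := (X⟦n⟧)⟦(1 : ℤ)⟧)
        ((shiftFunctorAdd T.C n 1).app _).symm oct.mem (cells_shift hA 1)
    have h14 := inv_rot_of_distTriang _ (inv_rot_of_distTriang _ h13)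
    refine cells_congr (cells_cell (k := k + n) ?_ h14 (cells_shift hZ (-1))) ?_
    · exact (shiftFunctorCompIsoId T.C (1 : ℤ) (-1) (by norm_num)).app _ ≪≫
        ((shiftFunctorAdd T.C k n).app _).symm
    · rw [Multiset.map_add, Multiset.map_map, Multiset.map_map, Multiset.map_cons,
        Multiset.add_cons, add_right_comm k n 1]
      congr 2
      · exact (Multiset.map_congr rfl fun x _ => by simp).trans (Multiset.map_id' a)
      · exact Multiset.map_congr rfl fun x _ => by simp only [Function.comp]; ring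

/-- extensions -/
theorem cells_ext {a c : Multiset ℤ} {A B C : T.C} {f : A ⟶ B} {g : B ⟶ C} {h : C ⟶ A⟦(1 : ℤ)⟧}
    (hd : Triangle.mk f g h ∈ distTriang T.C) (hA : Cells a A) (hC : Cells c C) :
    Cells (a + c) B :=
  cells_congr (cells_ext_aux hC 0 ((shiftFunctorZero T.C ℤ).app C).symm hd hA) (by simp)

/-- cofibres -/
theorem cells_cof {a b : Multiset ℤ} {A B C : T.C} {f : A ⟶ B} {g : B ⟶ C} {h : C ⟶ A⟦(1 : ℤ)⟧}
    (hd : Triangle.mk f g h ∈ distTriang T.C) (hA : Cells a A) (hB : Cells b B) :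
    Cells (b + a.map (· + 1)) C :=
  cells_ext (rot_of_distTriang _ hd) hB (cells_shift hA 1)

open ZeroObject in
theorem cells_unit : Cells {0} (𝟙_ T.C) := by
  have h1 := rot_of_distTriang _ (contractible_distinguished (sphere T (-1)))
  have h2 : Cells ((-1 + 1) ::ₘ 0) ((sphere T (-1))⟦(1 : ℤ)⟧) :=
    .cell (k := -1) h1 (.zero ((isZero_zero T.C).eq_of_src _ _))
  exact cells_congr (cells_iso h2 (((shiftFunctorAdd' T.C (-1) 1 0 (by ring)).app (𝟙_ T.C)).symm
    ≪≫ (shiftFunctorZero T.C ℤ).app _)) (by simp)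

theorem card_dims (p n : ℕ) : Multiset.card (dims p n) = 2 ^ (n + 1) := by
  unfold dims
  rw [Multiset.card_map, ← Finset.card_def, Finset.card_powerset, Finset.card_range]

theorem dims_zero (p : ℕ) : dims p 0 = {0} + ({0} : Multiset ℤ).map (· + 1) := by
  have h : (Finset.range (0 + 1)).powerset.val = {∅, {0}} := by decide
  unfold dims
  rw [h]
  simp

theorem dims_succ (p k : ℕ) : dims p (k + 1) =
    dims p k + ((dims p k).map (· + 2 * ((p ^ (k + 1) : ℤ) - 1))).map (· + 1) := by
  unfold dims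
  have hn : k + 1 ∉ Finset.range (k + 1) := Finset.notMem_range_self
  have h1 : (Finset.range (k + 1 + 1)).powerset.val = (Finset.range (k + 1)).powerset.val +
      (Finset.range (k + 1)).powerset.val.map (insert (k + 1)) := by
    rw [Finset.range_add_one, Finset.powerset_insert]
    have hd : Disjoint (Finset.range (k + 1)).powerset
        ((Finset.range (k + 1)).powerset.image (insert (k + 1))) := by
      rw [Finset.disjoint_left]
      intro A hA hA'
      obtain ⟨B, -, rfl⟩ := Finset.mem_image.1 hA'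
      exact hn (Finset.mem_powerset.1 hA (Finset.mem_insert_self _ _))
    rw [← Finset.disjUnion_eq_union _ _ hd, Finset.disjUnion_val, Finset.image_val_of_injOn]
    intro A hA B hB hAB
    have hA' : k + 1 ∉ A := fun h => hn (Finset.mem_powerset.1 hA h)
    have hB' : k + 1 ∉ B := fun h => hn (Finset.mem_powerset.1 hB h)
    rw [← Finset.erase_insert hA', hAB, Finset.erase_insert hB']
  rw [h1, Multiset.map_add, Multiset.map_map, Multiset.map_map, Multiset.map_map]
  congr 1
  refine Multiset.map_congr rfl fun A hA => ?_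
  have hA' : k + 1 ∉ A := fun h => hn (Finset.mem_powerset.1 hA h)
  simp only [Function.comp]
  rw [Finset.sum_insert hA']
  ring

end Vale.Agent.P257CZ
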