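import Vale.Agent.P257CY.St

/-! # P257, statement layer: cell structures -/

namespace Vale.Agent.P251CY.V

open Vale.Agent.P251.St Vale.Agent.P251.St.SHCat

/-- `Cells s X`: `X` is obtained from `0` by attaching cells one at a time,
`S^k ⟶ X ⟶ Y ⟶ S^{k+1}`, and `s` is the multiset of the dimensions `k + 1` of these cells. -/
inductive Cells {T : SHCat} : Multiset ℤ → T.C → Prop
  | zero {X} : ident X = nul X X → Cells 0 X
  | cell {s X Y k} {f : Hom (sphere T k) X} {g : Hom X Y} {h} :
      Dist f g h → Cells s X → Cells ((k + 1) ::ₘ s) Y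

/-- the numbers `∑_{i ∈ A} (2 p^i - 1)`, one for each subset `A` of `{0, …, n}` -/
def dims (p n : ℕ) : Multiset ℤ :=
  (Finset.range (n + 1)).powerset.val.map fun A => ∑ i ∈ A, (2 * (p : ℤ) ^ i - 1)

end Vale.Agent.P251CY.V
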