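import Vale.Agent.P257.H762.MHasV
import Vale.Agent.P257CZ.Cells
import Vale.Agent.P257CY.Br

/-!
# P257: every Smith-Toda complex at an odd prime has `2 ^ (n + 1)` cells
-/

open CategoryTheory MonoidalCategory Limits Pretriangulated MonObj
open Vale.Agent.P251 Vale.Agent.P251.T Vale.Agent.P251.S Vale.Agent.P251.H Vale.Agent.P251.M
  Vale.Agent.P251.I Vale.Agent.P257.H702 Vale.Agent.P257.H762
open Vale.Agent.P257.H314 (sI)

set_option linter.unusedSectionVars false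

noncomputable section

universe v u w

namespace Vale.Agent.P257CZ

section tower

variable {T : Type u} [Category.{v} T] [Preadditive T] [HasZeroObject T]
    [HasShift T ℤ] [∀ n : ℤ, (shiftFunctor T n).Additive] [Pretriangulated T] [IsTriangulated T]
    [MonoidalCategory T] [SymmetricCategory T] [TensorTriangulated T] [MonoidalClosed T]
    [HasCoproducts.{0} T] [HasProducts.{0} T] [StableCat T] {p : ℕ}

variable [LocallySmall.{0} T] {J : Type w} {K : J → T} [∀ i, MonObj (K i)]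
  [∀ i, IsCommMonObj (K i)] {S : ℕ → T} {v : ∀ i n, S n ⟶ K i}

/-- The tower under `C`, with a property which depends on the stage. -/
theorem exists_towerQ (hp : p.Prime) (hK : ∀ i, HK p (K i)) (h0 : Conn (0 : ℤ) (𝟙_ T))
    (hS : SphAct S) (sI : ∀ k, S k ≅ (𝟙_ T)⟦ww p k⟧) (ε : S 0 ≅ 𝟙_ T)
    (hv0 : ∀ i, v i 0 = (p : ℤ) • (ε.hom ≫ η[K i])) (hreg : ∀ i n, Reg (v i) n) (i₀ : J)
    {Q : ℕ → T → Prop}
    (hQ : ∀ (k : ℕ) {X Y Z A : T} (_ : X⟦ww p (k + 1)⟧ ≅ A) {f : A ⟶ Y} {g : Y ⟶ Z}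
      {h : Z ⟶ A⟦(1 : ℤ)⟧}, Dist f g h → Q k X → Q k Y → Q (k + 1) Z)
    {M : T} {iM : 𝟙_ T ⟶ M} {δM : M ⟶ (𝟙_ T)⟦(1 : ℤ)⟧}
    (DM : Dist ((p : ℤ) • 𝟙 (𝟙_ T)) iM δM) (hM : Q 0 M) (hMc : ∀ i, CycK (v i) 1 iM) (k : ℕ) :
    ∀ (C : T) (x : 𝟙_ T ⟶ C), PLoc p C → Conn 0 C →
      (∀ i, KilV (v i) (k + 1) x ∧ Sur (K i) x (aa p (k + 1)) ∧
        Ker (v i) (k + 1) x (aa p (k + 1) - 1)) →
      ∃ (Y : T) (y : 𝟙_ T ⟶ Y) (f : Y ⟶ C), Q k Y ∧ PLoc p Y ∧ Conn 0 Y ∧ y ≫ f = x ∧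
        ∀ i, CycK (v i) (k + 1) y := by
  induction k with
  | zero =>
    intro C x hC hC0 h
    have h1 : (p : ℤ) • x = 0 := by
      have h2 := (h i₀).1 0 Nat.one_pos
      rw [hv0, hcls_smul, hcls_comp] at h2
      have hD : DimLe (𝟙_ T) 0 := ⟨0, le_rfl, ⟨((shiftFunctorZero T ℤ).app _).symm⟩⟩
      refine hur_inj' (A := 𝟙_ T) hp (hK i₀) h0 hC hC0 hD _ ?_
      rw [← cancel_epi ε.hom, comp_zero, Preadditive.zsmul_comp, Preadditive.comp_zsmul]
      convert h2 using 3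
      unfold hcls hur
      rw [rightUnitor_inv_naturality_assoc, leftUnitor_inv_naturality_assoc, unitors_inv_equal]
      rw [whisker_exchange]
    obtain ⟨f, hf⟩ := DM.desc₂ x (by rw [Preadditive.zsmul_comp, Category.id_comp, h1])
    exact ⟨M, iM, f, hM, pLoc_cof hp DM, conn_cof h0 DM, hf, hMc⟩
  | succ k ih =>
    intro C x hC hC0 h
    have hp1 := hp.one_le
    have ha := aa_nonneg hp1 (k + 1)
    have hw := ww_nonneg hp1 (k + 1)
    have haw := aa_le_ww hp.two_le (k + 1)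
    have haa : aa p (k + 1 + 1) = aa p (k + 1) + ww p (k + 1) + 1 := rfl
    obtain ⟨Y, y, f, hYQ, hY, hY0, hyf, hYc⟩ := ih C x hC hC0 fun i =>
      ⟨(h i).1.mono (Nat.le_succ _), (h i).2.1.mono (by omega),
        Ker.low (hK i).conn sI (h i).2.2 (by omega) (by omega)⟩
    obtain ⟨C', x', d, g, D, hC', hC0', h'⟩ := exists_fibre_data hp hK h0 hS sI ε hv0 hreg i₀
      (Nat.succ_le_succ (Nat.zero_le k)) hyf hC hY hC0 hY0 (fun i => (h i).1)
      (fun i => (h i).2.1) (fun i => (h i).2.2) hYc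
    obtain ⟨Y', y', f', hYQ', hY', hY0', hyf', hYc'⟩ := ih C' x' hC' hC0' fun i =>
      ⟨(h' i).1, (h' i).2.1, (h' i).2.2.1⟩
    obtain ⟨V, j, δ, D'⟩ := exists_cone (S (k + 1) ◁ f' ≫ d)
    obtain ⟨f'', hf'', -⟩ := D'.map₃ D (S (k + 1) ◁ f') (𝟙 Y) (Category.comp_id _)
    rw [Category.id_comp] at hf''
    have e : Y'⟦ww p (k + 1)⟧ ≅ S (k + 1) ⊗ Y' :=
      (tensorSph _ _).symm ≪≫ (Y' ◁ᵢ (sI _).symm) ≪≫ β_ _ _
    have hbot : bot (S (k + 1)) y' ≫ S (k + 1) ◁ f' ≫ d = bot (S (k + 1)) x' ≫ d := by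
      rw [← hyf']
      simp [bot]
    refine ⟨V, y ≫ j, f'', hQ k e D' hYQ' hYQ, ?_, ?_, ?_, fun i => ?_⟩
    · exact PLoc.cof D' ((hY'.shift _).of_iso e) hY
    · exact Conn.ext₃ _ D' hY0 (((hY0'.shift _ _ rfl).mono (by omega)).of_iso e)
    · rw [Category.assoc, hf'', hyf]
    · obtain ⟨-, -, -, m, hm, c, hc, hcI⟩ := h' i
      refine cycK_step (hYc i) (hYc' i) hS (hreg i _) (m := m) ?_ (c := c) ?_ hcI D'
      · rw [hbot]; exact hm
      · rw [hbot]; exact hc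

/-- A map of connective `p`-local objects which matches the cyclic generators is invertible. -/
theorem isIso_of_cycK (hp : p.Prime) {K : T} [MonObj K] (hK : HK p K) (h0 : Conn (0 : ℤ) (𝟙_ T))
    {w : ∀ n, S n ⟶ K} {k : ℕ} {Y X : T} {y : 𝟙_ T ⟶ Y} {x : 𝟙_ T ⟶ X} {f : Y ⟶ X}
    (hx : y ≫ f = x) (hY : PLoc p Y) (hX : PLoc p X) (hY0 : Conn 0 Y) (hX0 : Conn 0 X)
    (cy : CycK w k y) (cx : CycK w k x) : IsIso f := by
  obtain ⟨F, d, g, D⟩ := exists_fibre f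
  have hF : PLoc p F := PLoc.fib D hY hX
  have hF0 : Conn (-1) F := Conn.ext₁ _ D (hY0.mono (by norm_num)) (hX0.mono (by norm_num))
  have hKF : ∀ n, Conn n (K ⊗ F) := by
    intro n j _ z
    refine inj_fib D hx (N := j) (fun A hA u => cx.1 A hA.isSph u) (DimLe.sph j) z ?_
    obtain ⟨a, ha⟩ := cy.1 _ (DimLe.sph j).isSph (z ≫ K ◁ d)
    have h1 : hcls x a = 0 := by
      rw [← hx, ← hcls_map, ← ha, Category.assoc, ← MonoidalCategory.whiskerLeft_comp, D.zero₁₂,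
        MonoidalPreadditive.whiskerLeft_zero, comp_zero]
    rw [ha]
    exact (cy.2 _ (DimLe.sph j).isSph a).2 ((cx.2 _ (DimLe.sph j).isSph a).1 h1)
  have hz : IsZero F := isZero_of_forall_conn StableCat.generator fun n =>
    conn_of_hur hp hK h0 hF hF0 (hKF n)
  exact (Triangle.isZero₁_iff_isIso₂ _ D).1 hz

end tower

open Vale.Agent.P257.St Vale.Agent.P257.H80
open Vale.Agent.P251CY.V (Cells dims)

variable {T : P251.St.SHCat} {S : P251.St.Susp T} {p n : ℕ}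

theorem cells_of_ring (R : P251.St.RingSp T)
    (v : ∀ i : ℕ, P251.St.SHCat.Hom (S.obj (P251.St.Cn (p ^ i - 1))) R.obj)
    (hp : p.Prime) (hK : HK p R.obj)
    (hv0 : wv hp.one_le v 0 = (p : ℤ) • ((e0 T.C p).hom ≫ η[R.obj]))
    (hreg : ∀ h, Reg (wv hp.one_le v) h) {X : T.C} (hX : FinPLocal p X)
    (h : IsSmithToda p n v X) : Cells (dims p n) X := by
  obtain ⟨hX0, x, hx⟩ := exists_gen (S := S) (J := Unit) (fun _ => R) (fun _ => v) hp
    (fun _ => hK) (fun _ => hv0) () hX (fun _ => h)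
  have hx := hx ()
  obtain ⟨M, iM, δM, DM⟩ := exists_cone ((p : ℤ) • 𝟙 (𝟙_ T.C))
  have hM : Cells (dims p 0) M :=
    cells_congr (cells_cof DM cells_unit cells_unit) (dims_zero p).symm
  have hcond : KilV (wv hp.one_le v) (n + 1) x ∧ Sur R.obj x (aa p (n + 1)) ∧
      Ker (wv hp.one_le v) (n + 1) x (aa p (n + 1) - 1) := by
    refine ⟨?_, fun A hA y => hx.1 A hA.isSph y, fun A hA a ha => (hx.2 A hA.isSph a).1 ha⟩
    intro i hi
    rw [hx.2 _ (by exact ⟨_, ⟨sI T.C ((p ^ i : ℤ) - 1)⟩⟩)]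
    have := inI_single (wv hp.one_le v) hi ((λ_ (Sv T.C p i)).inv ≫ η[R.obj] ▷ Sv T.C p i)
    rwa [unit_mul_cls] at this
  obtain ⟨Y, y, f, hY1, hY2, hY3, hyf, hY⟩ := exists_towerQ (J := Unit)
    (K := fun _ => R.obj) (S := Sv T.C p) (v := fun _ => wv hp.one_le v) hp (fun _ => hK)
    (unit_conn S.toSpaceFunctor) (sphAct p)
    (fun k => sI T.C ((p ^ k : ℤ) - 1)) (e0 T.C p) (fun _ => hv0) (fun _ => hreg) ()
    (Q := fun k Z => Cells (dims p k) Z)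
    (fun k _ _ _ _ e _ _ _ D h1 h2 => cells_congr
      (cells_cof D (cells_iso (cells_shift h1 _) e) h2) (dims_succ p k).symm) DM hM
    (fun _ => cycK_one (sphAct p) (hreg 1) (e0 T.C p) hv0 DM) n X x (finPLocal_pLoc hX)
    hX0 (fun _ => hcond)
  have := isIso_of_cycK hp hK (unit_conn S.toSpaceFunctor) hyf hY2 (finPLocal_pLoc hX) hY3 hX0
    (hY ()) hx
  exact cells_iso hY1 (asIso f)

theorem cells_old (hp : p.Prime) (h2 : p ≠ 2) {B : P251.St.RingSp T} {o : P251.St.Oriented S B}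
    {φ : ∀ n : ℕ, VPoly p n →+ P251.St.SHCat.Hom (S.obj (P251.St.Cn n)) B.obj}
    (hB : IsBrownPeterson p o φ) {X : T.C} (hX : FinPLocal p X)
    (h : IsSmithToda p n (hazV φ) X) : Cells (dims p n) X := by
  have : Fact p.Prime := ⟨hp⟩
  obtain ⟨D, hD, ⟨U⟩, -⟩ := exists_muAll S.toSpaceFunctor (lineIso S.toSpaceFunctor)
  obtain ⟨C, iC, δ, hC⟩ := distinguished_cocone_triangle ((p : ℤ) • 𝟙 (𝟙_ T.C))
  obtain ⟨u, hu, ho⟩ := U.exists_mapS o
  obtain ⟨Φ, hΦ, hlaw'⟩ := exists_hom hB.typ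
  have hb : IsBPMon p u := isBPMon_of_isBrownPeterson ptypOut hD U ptypIn hB ho
  have hlaw : lawOf u = (haz p).map Φ := by rw [← hlaw', U.lawS_eq ho]; rfl
  have hw : (wv hp.one_le fun i => (spI S hp.one_le i).hom ≫ vK D p u i) = vK D p u :=
    funext fun i => Iso.inv_hom_id_assoc _ _
  have hI : ∀ (k : ℤ) (a : P251.St.SHCat.Hom (P251.St.sphere T k) B.obj),
      InIdeal p n (fun i => (spI S hp.one_le i).hom ≫ vK D p u i) a ↔
        InIdeal p n (hazV φ) a := by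
    intro k a
    rw [inI_of_inIdeal hp.one_le, inI_of_inIdeal hp.one_le, hw]
    exact inI_haz hp.one_le hlaw hΦ a
  exact cells_of_ring (S := S) B (fun i => (spI S hp.one_le i).hom ≫ vK D p u i) hp
    (hk_of_isBPMon hD hb) (by rw [hw]; exact vK_zero u)
    (fun k => by rw [hw]; exact hb.reg hD h2 hC k) hX
    (isSmithToda_congr (fun k a => (hI k a).symm) h)

/-- **Cells**, in the compact statement layer. -/
theorem cells (hp : p.Prime) (h2 : p ≠ 2) (B : P251CY.RingSp T) (o : P251CY.Oriented S B)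
    (φ : P251CY.GHom S p B) (hB : P251CY.V.IsBrownPeterson p o φ) {X : T.C}
    (hX : P251CY.V.FinPLocal p X) (h : P251CY.V.IsSmithToda n (P251CY.V.hazV φ) X) :
    Cells (dims p n) X := by
  rw [P251CY.V.hazV_eq] at h
  exact cells_old hp h2 ((P251CY.V.isBrownPeterson_iff _ _ _).1 hB)
    ((P251CY.V.finPLocal_iff _ _).1 hX) ((P251CY.V.isSmithToda_iff p n _ X).1 h)

end Vale.Agent.P257CZ
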